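import Mathlib
import Vale.Agent.Lib.P057.R.Final

/-!
P057, question Q2 for `k = 3`, third formulation, without any definitions: dense subsets of
`{1, …, N}` contain 3-term arithmetic progressions.
-/

set_option autoImplicit false

open Filter

namespace Vale.Agent.Results.P057.ProgressionForced

private theorem real_aux {c : ℝ} (hc : 0 < c) (C ε : ℝ) (hε : 0 < ε) : ∀ᶠ x : ℝ in atTop,
    Real.exp (-c * (x / Real.log x) ^ ((1 : ℝ) / 6)) ≤
      ε * Real.exp (-C * x ^ ((1 : ℝ) / 9)) := by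
  have h1 := (isLittleO_log_rpow_atTop (show (0 : ℝ) < 1 / 6 by norm_num)).bound
    (show (0 : ℝ) < 1 by norm_num)
  have h2 := (tendsto_rpow_atTop (show (0 : ℝ) < 1 / 36 by norm_num)).eventually_ge_atTop
    ((C + |Real.log ε|) / c)
  have h3 := Real.tendsto_log_atTop.eventually_ge_atTop 1
  filter_upwards [h1, h2, h3, eventually_ge_atTop 1] with x hx1 hx2 hx3 hx4
  have hx0 : 0 < x := by linarith
  have hl0 : 0 < Real.log x := by linarith
  rw [Real.norm_of_nonneg hl0.le, Real.norm_of_nonneg (Real.rpow_nonneg hx0.le _), one_mul] at hx1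
  -- `x / log x ≥ x ^ (5 / 6)`
  have h4 : x ^ ((5 : ℝ) / 6) ≤ x / Real.log x := by
    rw [le_div_iff₀ hl0]
    calc x ^ ((5 : ℝ) / 6) * Real.log x ≤ x ^ ((5 : ℝ) / 6) * x ^ ((1 : ℝ) / 6) :=
          mul_le_mul_of_nonneg_left hx1 (Real.rpow_nonneg hx0.le _)
      _ = x := by
          rw [← Real.rpow_add hx0]
          norm_num
  have h5 : x ^ ((1 : ℝ) / 9) * x ^ ((1 : ℝ) / 36) ≤ (x / Real.log x) ^ ((1 : ℝ) / 6) := by
    calc x ^ ((1 : ℝ) / 9) * x ^ ((1 : ℝ) / 36) = (x ^ ((5 : ℝ) / 6)) ^ ((1 : ℝ) / 6) := by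
          rw [← Real.rpow_add hx0, ← Real.rpow_mul hx0.le]
          norm_num
      _ ≤ _ := Real.rpow_le_rpow (Real.rpow_nonneg hx0.le _) h4 (by norm_num)
  have h6 : 1 ≤ x ^ ((1 : ℝ) / 9) := Real.one_le_rpow hx4 (by norm_num)
  rw [div_le_iff₀ hc] at hx2
  have h7 : C * x ^ ((1 : ℝ) / 9) + |Real.log ε| ≤ c * (x / Real.log x) ^ ((1 : ℝ) / 6) := by
    calc C * x ^ ((1 : ℝ) / 9) + |Real.log ε|
        ≤ C * x ^ ((1 : ℝ) / 9) + |Real.log ε| * x ^ ((1 : ℝ) / 9) := by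
          have := mul_le_mul_of_nonneg_left h6 (abs_nonneg (Real.log ε))
          linarith
      _ = x ^ ((1 : ℝ) / 9) * (C + |Real.log ε|) := by ring
      _ ≤ x ^ ((1 : ℝ) / 9) * (x ^ ((1 : ℝ) / 36) * c) :=
          mul_le_mul_of_nonneg_left hx2 (Real.rpow_nonneg hx0.le _)
      _ = c * (x ^ ((1 : ℝ) / 9) * x ^ ((1 : ℝ) / 36)) := by ring
      _ ≤ _ := mul_le_mul_of_nonneg_left h5 hc.le
  have h8 : ε = Real.exp (Real.log ε) := (Real.exp_log hε).symm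
  rw [h8, ← Real.exp_add, Real.exp_le_exp]
  have h9 := neg_abs_le (Real.log ε)
  linarith

/-- (1) There are `c > 0` and `N₀` such that for all `N ≥ N₀` every `A ⊆ {1, …, N}` with more than
`N exp(-c (log N / log log N)^{1/6})` elements contains a progression `a, a + d, a + 2 d` with
`d > 0`.
(2) For all real `C` and `ε > 0` there is `N₀` such that for all `N ≥ N₀` every `A ⊆ {1, …, N}` with more
than `ε N exp(-C (log N)^{1/9})` elements contains such a progression; that is,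
`r_3(N) = o(N exp(-C (log N)^{1/9}))` for every `C`. -/
theorem result :
    (∃ c : ℝ, 0 < c ∧ ∃ N₀ : ℕ, ∀ N ≥ N₀, ∀ A ⊆ Finset.Icc 1 N,
      N * Real.exp (-c * (Real.log N / Real.log (Real.log N)) ^ ((1 : ℝ) / 6)) < A.card →
        ∃ a d : ℕ, 0 < d ∧ a ∈ A ∧ a + d ∈ A ∧ a + 2 * d ∈ A) ∧
    (∀ C ε : ℝ, 0 < ε → ∃ N₀ : ℕ, ∀ N ≥ N₀, ∀ A ⊆ Finset.Icc 1 N,
      ε * (N * Real.exp (-C * (Real.log N) ^ ((1 : ℝ) / 9))) < A.card →
        ∃ a d : ℕ, 0 < d ∧ a ∈ A ∧ a + d ∈ A ∧ a + 2 * d ∈ A) := by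
  obtain ⟨c, hc, N₀, h⟩ := _root_.P057.r3_upper
  have hkey : ∀ N ≥ N₀, ∀ A ⊆ Finset.Icc 1 N,
      N * Real.exp (-c * (Real.log N / Real.log (Real.log N)) ^ ((1 : ℝ) / 6)) < A.card →
        ∃ a d : ℕ, 0 < d ∧ a ∈ A ∧ a + d ∈ A ∧ a + 2 * d ∈ A := by
    intro N hN A hA hlt
    by_contra hcon
    push Not at hcon
    refine absurd (h N hN A hA fun a d hd hh => ?_) (not_le.2 hlt)
    exact hcon a d hd hh.1 hh.2.1 hh.2.2
  refine ⟨⟨c, hc, N₀, hkey⟩, fun C ε hε => ?_⟩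
  have h1 : Tendsto (fun N : ℕ => Real.log (N : ℝ)) atTop atTop :=
    Real.tendsto_log_atTop.comp tendsto_natCast_atTop_atTop
  obtain ⟨N₁, hN₁⟩ := eventually_atTop.1 (h1.eventually (real_aux hc C ε hε))
  refine ⟨max N₀ N₁, fun N hN A hA hlt => hkey N (le_of_max_le_left hN) A hA ?_⟩
  refine lt_of_le_of_lt ?_ hlt
  have h2 := mul_le_mul_of_nonneg_left (hN₁ N (le_of_max_le_right hN)) (Nat.cast_nonneg (α := ℝ) N)
  linarith

end Vale.Agent.Results.P057.ProgressionForced
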