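import Vale.Agent.Lib.P057.R.Final

/-!
P057, question Q2 for `k = 3`: an upper bound for `r_3(N)` with exponent `1/6`.
-/

set_option autoImplicit false

namespace Vale.Agent.Results.P057.R3UpperSixth

/-- `A` contains no (nonconstant) arithmetic progression `a, a + d, …, a + (k-1) d`, `d > 0`. -/
def APFree (k : ℕ) (A : Finset ℕ) : Prop :=
  ∀ a d : ℕ, 0 < d → ¬ (∀ i : ℕ, i < k → a + i * d ∈ A)

open Classical in
/-- `r k N` is the largest cardinality of a subset of `{1, …, N}` without `k`-term arithmetic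
progressions. -/
noncomputable def r (k N : ℕ) : ℕ :=
  ((Finset.Icc 1 N).powerset.filter (fun A => APFree k A)).sup Finset.card

/-- There are absolute constants `c > 0` and `N₀` such that for all `N ≥ N₀`,
`r_3(N) ≤ N exp(-c (log N / log log N)^{1/6})`. -/
theorem result : ∃ c : ℝ, 0 < c ∧ ∃ N₀ : ℕ, ∀ N : ℕ, N₀ ≤ N →
    (r 3 N : ℝ) ≤ N * Real.exp (-c * (Real.log N / Real.log (Real.log N)) ^ ((1 : ℝ) / 6)) := by
  classical
  obtain ⟨c, hc, N₀, h⟩ := _root_.P057.r3_upper
  refine ⟨c, hc, N₀, fun N hN => ?_⟩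
  have hb : ∀ A ∈ (Finset.Icc 1 N).powerset.filter (fun A => APFree 3 A),
      (A.card : ℝ) ≤
        N * Real.exp (-c * (Real.log N / Real.log (Real.log N)) ^ ((1 : ℝ) / 6)) := by
    intro A hA
    rw [Finset.mem_filter, Finset.mem_powerset] at hA
    apply h N hN A hA.1
    intro a d hd hh
    apply hA.2 a d hd
    intro i hi
    interval_cases i
    · simpa using hh.1
    · simpa using hh.2.1
    · simpa using hh.2.2
  have hne : ((Finset.Icc 1 N).powerset.filter (fun A => APFree 3 A)).Nonempty := by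
    refine ⟨∅, ?_⟩
    rw [Finset.mem_filter]
    refine ⟨Finset.empty_mem_powerset _, ?_⟩
    intro a d _ hh
    exact absurd (hh 0 (by norm_num)) (Finset.notMem_empty _)
  obtain ⟨A, hA, hAe⟩ := Finset.exists_mem_eq_sup _ hne Finset.card
  unfold r
  rw [hAe]
  exact hb A hA

end Vale.Agent.Results.P057.R3UpperSixth
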