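import Vale.Agent.Lib.P057.R.RothSixth

/-!
P057 (second formulation): upper bounds for the Roth number of Mathlib
(`rothNumberNat N` = the largest size of a subset of `{0, …, N - 1}` without 3-term progressions).
-/

set_option autoImplicit false

open Filter

namespace Vale.Agent.Results.P057.RothNumberSixth

/-- Upper bounds for `rothNumberNat N` (`= r_3(N)`, the largest size of a subset of
`{0, …, N - 1}` without 3-term arithmetic progressions), with exponent `1/6`:
(1) `r_3(N) ≤ N exp(-c (log N / log log N)^{1/6})` for large `N`;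
(2) `r_3(N) ≤ N exp(-c (log N)^{1/6} / log log N)` for large `N`;
(3) `r_3(N) ≤ N exp(-(log N)^{1/6 - ε})` for every `ε > 0` and large `N`;
(4) `∑_{a ∈ A} exp((log a)^β) / a < ∞` for every set `A` of natural numbers without 3-term
arithmetic progressions and every `0 ≤ β < 1/6`. -/
theorem result :
    (∃ c : ℝ, 0 < c ∧ ∀ᶠ N : ℕ in atTop, (rothNumberNat N : ℝ) ≤
      N * Real.exp (-(c * (Real.log N / Real.log (Real.log N)) ^ ((1 : ℝ) / 6)))) ∧
    (∃ c : ℝ, 0 < c ∧ ∀ᶠ N : ℕ in atTop, (rothNumberNat N : ℝ) ≤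
      N * Real.exp (-(c * ((Real.log N) ^ ((1 : ℝ) / 6) / Real.log (Real.log N))))) ∧
    (∀ ε : ℝ, 0 < ε → ∀ᶠ N : ℕ in atTop, (rothNumberNat N : ℝ) ≤
      N * Real.exp (-((Real.log N) ^ ((1 : ℝ) / 6 - ε)))) ∧
    (∀ A : Set ℕ, ThreeAPFree A → ∀ β : ℝ, 0 ≤ β → β < 1 / 6 →
      Summable (fun a : A => Real.exp ((Real.log ((a : ℕ) : ℝ)) ^ β) / ((a : ℕ) : ℝ))) :=
  ⟨_root_.P057.RothSixth.strong, _root_.P057.RothSixth.second, _root_.P057.RothSixth.third,
    _root_.P057.RothSixth.recip⟩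

end Vale.Agent.Results.P057.RothNumberSixth
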